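import Vale.Agent.P167.H871.Q.Win
import Vale.Agent.P167.QX.Loops
import Vale.Agent.P167.H945.Q.TDefs

/-!
# P167, general `q`, L2S (d): lower bounds for the factors of the loops near the holes

`gW θ m`: the relative weight of a strand of type `m = τ t`. The factor of a loop with a strand of type
`m ≥ 0` is at least the product of the relative weights.
-/

namespace Vale.Agent.P167.H592D

open Finset
open Vale.Agent.P167.FK
open Vale.Agent.P167.Top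
open Vale.Agent.P167.XDL (bS mem_bS)
open Vale.Agent.P167.QX (VisL wS fLp TB)
open Vale.Agent.P167.H685 (LE mem_LE)
open Vale.Agent.P167.H871.Q (weight_val sin_low low_pos)
open Vale.Agent.P167.H945.Q (natw relw)

variable {θ : ℝ}

/-- The relative weight of a strand of type `m`. -/
noncomputable def gW (θ : ℝ) (m : ℤ) : ℝ :=
  Real.sin (θ / 4 * (6 + m)) / (if 0 ≤ m then Real.sin (2 * θ) else Real.sin θ)

/-- The lower bound. -/
noncomputable def cW (θ : ℝ) : ℝ := min (Real.sin (θ / 2)) (Real.sin (5 * θ / 2))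

theorem sins (h0 : 0 < θ) (h1 : θ ≤ Real.pi / 3) : 0 < Real.sin θ ∧ 0 < Real.sin (2 * θ) ∧
    0 < Real.cos θ ∧ 1 ≤ 2 * Real.cos θ := by
  have hpi := Real.pi_pos
  refine ⟨Real.sin_pos_of_pos_of_lt_pi h0 (by linarith), Real.sin_pos_of_pos_of_lt_pi (by linarith)
    (by linarith), Real.cos_pos_of_mem_Ioo ⟨by linarith, by linarith⟩, ?_⟩
  have h2 : Real.cos (Real.pi / 3) ≤ Real.cos θ :=
    Real.cos_le_cos_of_nonneg_of_le_pi h0.le (by linarith) h1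
  rw [Real.cos_pi_div_three] at h2
  linarith

theorem cW_pos (h0 : 0 < θ) (h1 : θ ≤ Real.pi / 3) : 0 < cW θ := low_pos h0 h1

theorem cW_le_one : cW θ ≤ 1 := (min_le_left _ _).trans (Real.sin_le_one _)

theorem gW_two (h0 : 0 < θ) (h1 : θ ≤ Real.pi / 3) : gW θ 2 = 1 := by
  unfold gW
  rw [if_pos (by norm_num), show θ / 4 * (6 + ((2 : ℤ) : ℝ)) = 2 * θ by push_cast; ring,
    div_self (sins h0 h1).2.1.ne']

theorem gW_neg_two (h0 : 0 < θ) (h1 : θ ≤ Real.pi / 3) : gW θ (-2) = 1 := by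
  unfold gW
  rw [if_neg (by norm_num), show θ / 4 * (6 + ((-2 : ℤ) : ℝ)) = θ by push_cast; ring,
    div_self (sins h0 h1).1.ne']

theorem gW_low (h0 : 0 < θ) (h1 : θ ≤ Real.pi / 3) {m : ℤ} (hm : -4 ≤ m) (hm' : m ≤ 4) :
    cW θ ≤ gW θ m := by
  obtain ⟨s1, s2, -, -⟩ := sins h0 h1
  have a1 : (-4 : ℝ) ≤ m := by exact_mod_cast hm
  have a2 : (m : ℝ) ≤ 4 := by exact_mod_cast hm'
  have h2 := sin_low h0 h1 (show (2 : ℝ) ≤ 6 + m by linarith) (by linarith)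
  have h3 : 0 < cW θ := cW_pos h0 h1
  change cW θ ≤ _ at h2
  unfold gW
  have h4 : 0 < (if 0 ≤ m then Real.sin (2 * θ) else Real.sin θ) ∧
      (if 0 ≤ m then Real.sin (2 * θ) else Real.sin θ) ≤ 1 := by
    split_ifs
    · exact ⟨s2, Real.sin_le_one _⟩
    · exact ⟨s1, Real.sin_le_one _⟩
  rw [le_div_iff₀ h4.1]
  nlinarith [h4.2]

theorem gW_pos (h0 : 0 < θ) (h1 : θ ≤ Real.pi / 3) {m : ℤ} (hm : -4 ≤ m) (hm' : m ≤ 4) :
    0 < gW θ m := (cW_pos h0 h1).trans_le (gW_low h0 h1 hm hm')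

/-- The weights at the tips. -/
theorem relw_tip (h0 : 0 < θ) (h1 : θ ≤ Real.pi / 3) {τ : ℝ} (hτ : τ = 1 ∨ τ = -1) {t m : ℤ}
    (ht : t = 4 ∨ t = -4) (hm : (m : ℝ) = τ * t) : relw θ t 0 τ τ = gW θ m := by
  have hmm : -4 ≤ m ∧ m ≤ 4 ∧ m ≠ 0 := by
    rcases hτ with rfl | rfl <;> rcases ht with rfl | rfl
    · have : m = 4 := by exact_mod_cast (show (m : ℝ) = (4 : ℤ) by rw [hm]; push_cast; ring)
      omega
    · have : m = -4 := by exact_mod_cast (show (m : ℝ) = (-4 : ℤ) by rw [hm]; push_cast; ring)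
      omega
    · have : m = -4 := by exact_mod_cast (show (m : ℝ) = (-4 : ℤ) by rw [hm]; push_cast; ring)
      omega
    · have : m = 4 := by exact_mod_cast (show (m : ℝ) = (4 : ℤ) by rw [hm]; push_cast; ring)
      omega
  have hc : Real.cos (θ / 4 * t + 0 + (τ + τ) * ((3 * θ - Real.pi) / 4)) =
      Real.sin (θ / 4 * (6 + m)) := by
    obtain ⟨w1, w2⟩ := weight_val θ t
    rw [hm]
    rcases hτ with rfl | rfl
    · rw [show θ / 4 * (t : ℝ) + 0 + (1 + 1) * ((3 * θ - Real.pi) / 4) =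
        θ / 4 * t + 1 * ((3 * θ - Real.pi) / 2) by ring,
        show θ / 4 * (6 + 1 * (t : ℝ)) = θ / 4 * (6 + t) by ring]
      linarith
    · rw [show θ / 4 * (t : ℝ) + 0 + (-1 + -1) * ((3 * θ - Real.pi) / 4) =
        θ / 4 * t + -1 * ((3 * θ - Real.pi) / 2) by ring,
        show θ / 4 * (6 + -1 * (t : ℝ)) = θ / 4 * (6 - t) by ring]
      linarith
  have a1 : (-4 : ℝ) ≤ m := by exact_mod_cast hmm.1
  have a2 : (m : ℝ) ≤ 4 := by exact_mod_cast hmm.2.1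
  have hpos : 0 < Real.sin (θ / 4 * (6 + m)) :=
    (cW_pos h0 h1).trans_le (sin_low h0 h1 (show (2 : ℝ) ≤ 6 + m by linarith) (by linarith))
  unfold relw gW natw
  rw [hc, abs_of_pos hpos]
  congr 1
  have h3 : (0 < τ * t) ↔ 0 ≤ m := by
    rw [← hm]
    constructor
    · intro h
      have : (0 : ℤ) < m := by exact_mod_cast h
      omega
    · intro h
      have : (0 : ℤ) < m := by omega
      exact_mod_cast this
  by_cases h : 0 ≤ m
  · rw [if_pos ⟨rfl, h3.2 h⟩, if_pos h]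
  · rw [if_neg (fun h' => h (h3.1 h'.2)), if_neg h]

/-- The factor of a strand. -/
theorem wS_gW (h0 : 0 < θ) (h1 : θ ≤ Real.pi / 3) {K : Finset (ℤ × ℤ)} {a : Ed → Bool → ℝ}
    {ω : Cfg} {e : Ed} {τ : ℝ} (hτ : τ = 1 ∨ τ = -1) {t m : ℤ} (hm : (m : ℝ) = τ * t)
    (hc : H199.cang A.plane θ a ω (H199.strand (nx ω) (bS K) e) =
      θ / 4 * t + τ * ((3 * θ - Real.pi) / 2)) :
    wS θ K a ω e = gW θ m * (if 0 ≤ m then 2 * Real.cos θ else 1) := by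
  obtain ⟨s1, s2, s3, -⟩ := sins h0 h1
  have h2 : Real.cos (θ / 4 * t + τ * ((3 * θ - Real.pi) / 2)) = Real.sin (θ / 4 * (6 + m)) := by
    obtain ⟨w1, w2⟩ := weight_val θ t
    rw [hm]
    rcases hτ with rfl | rfl
    · rw [show θ / 4 * (6 + 1 * (t : ℝ)) = θ / 4 * (6 + t) by ring]
      linarith
    · rw [show θ / 4 * (6 + -1 * (t : ℝ)) = θ / 4 * (6 - t) by ring]
      linarith
  unfold wS gW
  rw [hc, h2]
  have h3 : Real.sin (2 * θ) = 2 * Real.sin θ * Real.cos θ := Real.sin_two_mul θ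
  split_ifs
  · rw [h3]
    field_simp
  · rw [mul_one]

/-- **The factor of a loop with a strand of positive type.** -/
theorem fLp_low (h0 : 0 < θ) (h1 : θ ≤ Real.pi / 3) {K : Finset (ℤ × ℤ)} {a : Ed → Bool → ℝ}
    {ω : Cfg} {ℓ : Finset Ed} {m : Ed → ℤ}
    (hm : ∀ e ∈ (bS K).filter (fun e => hdv e ∉ K ∧ e ∈ ℓ), -4 ≤ m e ∧ m e ≤ 4 ∧
      wS θ K a ω e = gW θ (m e) * (if 0 ≤ m e then 2 * Real.cos θ else 1))
    (hp : ∃ e ∈ (bS K).filter (fun e => hdv e ∉ K ∧ e ∈ ℓ), 0 ≤ m e) :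
    ∏ e ∈ (bS K).filter (fun e => hdv e ∉ K ∧ e ∈ ℓ), gW θ (m e) ≤ fLp θ K a ω ℓ := by
  classical
  obtain ⟨s1, s2, s3, s4⟩ := sins h0 h1
  unfold fLp
  rw [prod_congr rfl fun e he => (hm e he).2.2, prod_mul_distrib, le_div_iff₀ (by linarith)]
  refine mul_le_mul_of_nonneg_left ?_ (prod_nonneg fun e he =>
    (gW_pos h0 h1 (hm e he).1 (hm e he).2.1).le)
  obtain ⟨e₀, he₀, he₁⟩ := hp
  rw [← mul_prod_erase _ _ he₀, if_pos he₁]
  refine le_mul_of_one_le_right (by linarith) ?_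
  refine Finset.prod_induction (fun e => if 0 ≤ m e then 2 * Real.cos θ else 1) (fun x => 1 ≤ x)
    (fun x y hx hy => one_le_mul_of_one_le_of_one_le hx hy) le_rfl fun e _ => ?_
  split_ifs
  · exact s4
  · exact le_rfl

open Classical in
/-- The exits of the loops which visit `B`. -/
noncomputable def XB (K : Finset (ℤ × ℤ)) (B : Set (ℤ × ℤ)) (ω : Cfg) : Finset Ed :=
  (bS K).filter fun e => hdv e ∉ K ∧ ∃ ℓ, IsLoop ω ℓ ∧ e ∈ ℓ ∧ VisL B ℓ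

theorem mem_XB {K : Finset (ℤ × ℤ)} {B : Set (ℤ × ℤ)} {ω : Cfg} {e : Ed} :
    e ∈ XB K B ω ↔ e ∈ bS K ∧ hdv e ∉ K ∧ ∃ ℓ, IsLoop ω ℓ ∧ e ∈ ℓ ∧ VisL B ℓ := by
  classical
  unfold XB
  rw [mem_filter]

/-- **The product over the loops which visit `B`.** -/
theorem TB_low (h0 : 0 < θ) (h1 : θ ≤ Real.pi / 3) {K : Finset (ℤ × ℤ)} {a : Ed → Bool → ℝ}
    {B : Set (ℤ × ℤ)} {ω : Cfg} {m : Ed → ℤ}
    (hm : ∀ e ∈ XB K B ω, -4 ≤ m e ∧ m e ≤ 4 ∧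
      wS θ K a ω e = gW θ (m e) * (if 0 ≤ m e then 2 * Real.cos θ else 1))
    (hp : ∀ ℓ ∈ LE ω (bS K), VisL B ℓ → ∃ e ∈ ℓ, e ∈ bS K ∧ hdv e ∉ K ∧ 0 ≤ m e) :
    ∏ e ∈ XB K B ω, gW θ (m e) ≤ TB θ K a B ω := by
  classical
  have hX : XB K B ω = ((LE ω (bS K)).filter (VisL B)).biUnion fun ℓ =>
      (bS K).filter (fun e => hdv e ∉ K ∧ e ∈ ℓ) := by
    ext e
    rw [mem_XB, mem_biUnion]
    constructor
    · rintro ⟨g1, g2, ℓ, g3, g4, g5⟩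
      exact ⟨ℓ, mem_filter.2 ⟨mem_LE.2 ⟨g3, e, g1, g4⟩, g5⟩, mem_filter.2 ⟨g1, g2, g4⟩⟩
    · rintro ⟨ℓ, g1, g2⟩
      obtain ⟨g3, g4⟩ := mem_filter.1 g1
      obtain ⟨g5, g6, g7⟩ := mem_filter.1 g2
      exact ⟨g5, g6, ℓ, (mem_LE.1 g3).1, g7, g4⟩
  have hsub : ∀ ℓ ∈ (LE ω (bS K)).filter (VisL B), ∀ e ∈ (bS K).filter (fun e => hdv e ∉ K ∧ e ∈ ℓ),
      e ∈ XB K B ω := fun ℓ hℓ e he => by
    rw [hX]; exact mem_biUnion.2 ⟨ℓ, hℓ, he⟩
  unfold TB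
  rw [hX, prod_biUnion]
  · refine prod_le_prod (fun ℓ hℓ => prod_nonneg fun e he => ?_) fun ℓ hℓ => ?_
    · obtain ⟨g1, g2, -⟩ := hm e (hsub ℓ hℓ e he)
      exact (gW_pos h0 h1 g1 g2).le
    · refine fLp_low h0 h1 (fun e he => hm e (hsub ℓ hℓ e he)) ?_
      obtain ⟨g1, g2⟩ := mem_filter.1 hℓ
      obtain ⟨e, g3, g4, g5, g6⟩ := hp ℓ g1 g2
      exact ⟨e, mem_filter.2 ⟨g4, g5, g3⟩, g6⟩
  · intro ℓ h1 ℓ' h2 hne
    rw [Function.onFun, Finset.disjoint_left]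
    intro e h3 h4
    exact hne (IsLoop.eq_of_mem (mem_LE.1 (mem_filter.1 h1).1).1 (mem_LE.1 (mem_filter.1 h2).1).1
      (mem_filter.1 h3).2.2 (mem_filter.1 h4).2.2)

end Vale.Agent.P167.H592D
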